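import Mathlib
import Crest.Agent.R204.HMainC_515
import Crest.Agent.R204.KFin_837

-- ▼ part R204/KIn_515
section

/-!
# Row 204, block H: transport of the K-theory of `SA (Fin m)` to a collapsed cube (helper515)

* `map_ext` : naturality of external products;
* `kinOf`   : the input `KIn a y` of `hopf_gf` from statements about `SA N`.
-/

set_option autoImplicit false

open scoped unitInterval Topology Topology.Homotopy

noncomputable section

namespace Crest.Agent.R204.HMain515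

open H472 Ex837 ExM515
open K357 (K0 psi psi_map psi_comm psi_two)

/-! ## naturality of external products -/

section MapExt

variable {k : Type} [CommRing k] {B B' Pr S B₁ B₁' Pr₁ S₁ : Type} [CommRing B] [CommRing B']
  [CommRing Pr] [CommRing S] [Algebra k B] [Algebra k B'] [Algebra k Pr] [Algebra k S]
  [CommRing B₁] [CommRing B₁'] [CommRing Pr₁] [CommRing S₁] [Algebra k B₁] [Algebra k B₁']
  [Algebra k Pr₁] [Algebra k S₁] {D : PD k B B' Pr} {D₁ : PD k B₁ B₁' Pr₁} (Z : D.Sm S)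
  (Z₁ : D₁.Sm S₁)

theorem map_ext (u : B →+* B₁) (u' : B' →+* B₁') (v : Pr →+* Pr₁) (w : S →+* S₁)
    (hi1 : ∀ b, v (D.i1 b) = D₁.i1 (u b)) (hi2 : ∀ b, v (D.i2 b) = D₁.i2 (u' b))
    (hinc : ∀ s, v (Z.inc s) = Z₁.inc (w s)) (hev : ∀ s, Z₁.ev (w s) = Z.ev s)
    (he : ∀ b, D₁.e (u b) = D.e b) (he' : ∀ b, D₁.e' (u' b) = D.e' b)
    {x : KC B} {y : KC B'} (hx : KM D.e.toRingHom x = 0) (hy : KM D.e'.toRingHom y = 0) :
    KM w (Z.ext x y) = Z₁.ext (KM u x) (KM u' y) := by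
  have h1 : KM Z.inc.toRingHom (Z.ext x y) = KM D.i1.toRingHom x * KM D.i2.toRingHom y :=
    Z.inc_ext hx hy
  have h2 : KM Z.ev.toRingHom (Z.ext x y) = 0 := Z.ev_ext hx hy
  have hx' : KM D₁.e.toRingHom (KM u x) = 0 :=
    (KM_comp _ _ D.e.toRingHom he x).trans hx
  have hy' : KM D₁.e'.toRingHom (KM u' y) = 0 :=
    (KM_comp _ _ D.e'.toRingHom he' y).trans hy
  refine Z₁.eq_ext hx' hy' ?_ ?_
  · change KM Z₁.inc.toRingHom (KM w (Z.ext x y)) =
      KM D₁.i1.toRingHom (KM u x) * KM D₁.i2.toRingHom (KM u' y)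
    have a1 : KM Z₁.inc.toRingHom (KM w (Z.ext x y)) =
        KM v (KM Z.inc.toRingHom (Z.ext x y)) :=
      (KM_comp w Z₁.inc.toRingHom (Z₁.inc.toRingHom.comp w) (fun _ => rfl) _).trans
        (KM_comp Z.inc.toRingHom v (Z₁.inc.toRingHom.comp w) hinc _).symm
    have a2 : KM D₁.i1.toRingHom (KM u x) = KM v (KM D.i1.toRingHom x) :=
      (KM_comp u D₁.i1.toRingHom (D₁.i1.toRingHom.comp u) (fun _ => rfl) _).trans
        (KM_comp D.i1.toRingHom v (D₁.i1.toRingHom.comp u) hi1 _).symm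
    have a3 : KM D₁.i2.toRingHom (KM u' y) = KM v (KM D.i2.toRingHom y) :=
      (KM_comp u' D₁.i2.toRingHom (D₁.i2.toRingHom.comp u') (fun _ => rfl) _).trans
        (KM_comp D.i2.toRingHom v (D₁.i2.toRingHom.comp u') hi2 _).symm
    rw [a1, a2, a3, h1, map_mul]
  · change KM Z₁.ev.toRingHom (KM w (Z.ext x y)) = 0
    exact (KM_comp w _ Z.ev.toRingHom hev _).trans h2

end MapExt

/-! ## transport along a collapse -/


section Transport

variable {N : Type} {Y : Type} [TopologicalSpace Y] [T2Space Y] {y : Y}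











section norm
variable [CompactSpace Y]




end norm

















end Transport

end Crest.Agent.R204.HMain515
end
end

-- ▼ part N218/Hf/Rp
section

/-!
# Row 218, block D3, leaf HOPF (helper39): generators and relative products
-/

set_option autoImplicit false
set_option linter.unusedVariables false
set_option linter.unusedSectionVars false

open scoped unitInterval Topology
open Set Function

noncomputable section

namespace Crest.Agent.N218.Hf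

open Crest.Agent.R204 H472 Ex837 ExM515 HMain515
open K357 (K0 psi psi_map psi_comm psi_two)

/-! ## free generators -/

section Gn
variable {A B C : Type} [AddCommGroup A] [AddCommGroup B] [AddCommGroup C]

/-- `b` is a free generator of the kernel of `ε` -/
def Gn (ε : A → C) (b : A) : Prop :=
  ε b = 0 ∧ (∀ x, ε x = 0 → ∃ n : ℤ, x = n • b) ∧ ∀ n : ℤ, n • b = 0 → n = 0

theorem Gn.map {ε : A → C} {δ : B → C} {b : A} (h : Gn ε b) (φ : A →+ B) (hφ : Bijective φ)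
    (e : ∀ x, δ (φ x) = ε x) : Gn δ (φ b) := by
  refine ⟨(e b).trans h.1, fun y hy => ?_, fun n hn => h.2.2 n (hφ.1 ?_)⟩
  · obtain ⟨x, rfl⟩ := hφ.2 y
    obtain ⟨n, rfl⟩ := h.2.1 x ((e x).symm.trans hy)
    exact ⟨n, map_zsmul φ n b⟩
  · rw [map_zsmul, hn, map_zero]

theorem Gn.of_map {ε : A → C} {δ : B → C} {b : A} (φ : A →+ B) (hφ : Bijective φ)
    (e : ∀ x, δ (φ x) = ε x) (h : Gn δ (φ b)) : Gn ε b := by
  refine ⟨(e b).symm.trans h.1, fun x hx => ?_, fun n hn => h.2.2 n ?_⟩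
  · obtain ⟨n, hn⟩ := h.2.1 (φ x) ((e x).trans hx)
    exact ⟨n, hφ.1 (by rw [map_zsmul, hn])⟩
  · rw [← map_zsmul, hn, map_zero]

theorem Gn.unit {ε : A → C} {b x : A} (h : Gn ε b) (hx : ε x = 0) {k : ℤ} (hk : x = k • b)
    (hu : IsUnit k) : Gn ε x := by
  have hkk : k * k = 1 := by rcases Int.isUnit_iff.1 hu with rfl | rfl <;> norm_num
  refine ⟨hx, fun y hy => ?_, fun n hn => ?_⟩
  · obtain ⟨n, rfl⟩ := h.2.1 y hy
    exact ⟨n * k, by rw [hk, smul_smul, mul_assoc, hkk, mul_one]⟩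
  · rw [hk, smul_smul] at hn
    have := h.2.2 _ hn
    have h2 : n = n * k * k := by rw [mul_assoc, hkk, mul_one]
    rw [h2, this, zero_mul]

/-- a class that maps to a generator is a generator -/
theorem Gn.of_to {ε : A → C} {δ : B → C} {g x : A} {b : B} (hg : Gn ε g) (hb : Gn δ b)
    (φ : A →+ B) (e : ∀ x, δ (φ x) = ε x) (hx : ε x = 0) (h : φ x = b) : Gn ε x := by
  obtain ⟨k, hk⟩ := hg.2.1 x hx
  obtain ⟨n, hn⟩ := hb.2.1 (φ g) ((e g).trans hg.1)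
  refine hg.unit hx hk ?_
  have : (k * n - 1) • b = 0 := by
    rw [sub_smul, mul_smul, ← hn, ← map_zsmul, ← hk, h, one_smul, sub_self]
  have h2 := hb.2.2 _ this
  exact IsUnit.of_mul_eq_one n (by linarith)

theorem Gn.sign {ε : A → C} {g x : A} (hg : Gn ε g) (hx : Gn ε x) :
    ∃ k : ℤ, IsUnit k ∧ x = k • g := by
  obtain ⟨k, hk⟩ := hg.2.1 x hx.1
  obtain ⟨n, hn⟩ := hx.2.1 g hg.1
  have : (n * k - 1) • g = 0 := by
    rw [sub_smul, mul_smul, ← hk, ← hn, one_smul, sub_self]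
  have h2 := hg.2.2 _ this
  exact ⟨k, IsUnit.of_mul_eq_one n (by linarith), hk⟩

theorem Gn.congr {ε δ : A → C} {b : A} (h : Gn ε b) (e : ∀ x, δ x = ε x) : Gn δ b := by
  have : δ = ε := funext e
  rw [this]; exact h

end Gn

/-! ## named homomorphisms -/

variable {X Y Z : Type} [TopologicalSpace X] [TopologicalSpace Y] [TopologicalSpace Z]

/-- pull-back on pairs -/
def kc (g : C(X, Y)) {A : Set X} {B : Set Y} (hg : MapsTo g A B) : KC (CR Y B) →+* KC (CR X A) :=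
  KM (A := CR Y B) (B := CR X A) (CR.comap g hg).toRingHom
/-- from the pair to the space -/
def ki (A : Set X) : KC (CR X A) →+* KC C(X, ℂ) :=
  KM (A := CR X A) (B := C(X, ℂ)) (CR X A).val.toRingHom
/-- evaluation on a pair -/
def ke (A : Set X) (a : X) : KC (CR X A) →+* KC ℂ :=
  KM (A := CR X A) (B := ℂ) (CR.ev a : CR X A →ₐ[ℂ] ℂ).toRingHom
/-- pull-back -/
def kp (g : C(X, Y)) : KC C(Y, ℂ) →+* KC C(X, ℂ) :=
  KM (A := C(Y, ℂ)) (B := C(X, ℂ)) (ContinuousMap.compRightAlgHom ℂ ℂ g).toRingHom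
/-- evaluation -/
def kv (x : X) : KC C(X, ℂ) →+* KC ℂ :=
  KM (A := C(X, ℂ)) (B := ℂ) (ContinuousMap.evalAlgHom ℂ ℂ x).toRingHom
/-- constants -/
def kk (X : Type) [TopologicalSpace X] : KC ℂ →+* KC C(X, ℂ) :=
  KM (A := ℂ) (B := C(X, ℂ)) (algebraMap ℂ C(X, ℂ))

/-- Adams operations on pairs -/
def pC (p : ℕ) [Fact p.Prime] (A : Set X) : KC (CR X A) →+* KC (CR X A) := psi p (CR X A)
/-- Adams operations on spaces -/
def pX (p : ℕ) [Fact p.Prime] (X : Type) [TopologicalSpace X] : KC C(X, ℂ) →+* KC C(X, ℂ) :=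
  psi p C(X, ℂ)

section names
variable {A : Set X} {B : Set Y} {C : Set Z}

theorem KM_eq {R S T U : Type} [CommRing R] [CommRing S] [CommRing T] [CommRing U]
    (φ : R →+* S) (ψ : S →+* U) (φ' : R →+* T) (ψ' : T →+* U) (h : ∀ a, ψ (φ a) = ψ' (φ' a))
    (x : KC R) : KM ψ (KM φ x) = KM ψ' (KM φ' x) :=
  (KM_comp φ ψ (ψ.comp φ) (fun _ => rfl) x).trans
    (KM_comp φ' ψ' (ψ.comp φ) (fun a => (h a).symm) x).symm

theorem kc_kc (g : C(X, Y)) (hg : MapsTo g A B) (f : C(Y, Z)) (hf : MapsTo f B C)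
    (k : C(X, Z)) (hk : MapsTo k A C) (h : ∀ x, f (g x) = k x) (x : KC (CR Z C)) :
    kc g hg (kc f hf x) = kc k hk x :=
  KM_comp _ _ _ (fun a => Subtype.ext (ContinuousMap.ext fun x => congrArg a.1 (h x))) x


theorem kp_kp (g : C(X, Y)) (f : C(Y, Z)) (k : C(X, Z)) (h : ∀ x, f (g x) = k x)
    (x : KC C(Z, ℂ)) : kp g (kp f x) = kp k x :=
  by unfold kp; exact KM_comp _ _ _ (by exact fun a => ContinuousMap.ext fun x => congrArg a (h x)) x

theorem kp_id (g : C(X, X)) (h : ∀ x, g x = x) (x : KC C(X, ℂ)) : kp g x = x :=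
  KM_id _ (fun a => ContinuousMap.ext fun x => congrArg a (h x)) x

theorem ki_kc (g : C(X, Y)) (hg : MapsTo g A B) (x : KC (CR Y B)) :
    ki A (kc g hg x) = kp g (ki B x) := by
  unfold ki kc kp; exact KM_eq _ _ _ _ (by exact fun _ => rfl) x

theorem kv_ki (a : X) (x : KC (CR X A)) : kv a (ki A x) = ke A a x :=
  KM_comp _ _ _ (fun _ => rfl) x

theorem kv_kp (g : C(X, Y)) (a : X) (x : KC C(Y, ℂ)) : kv a (kp g x) = kv (g a) x :=
  KM_comp _ _ _ (fun _ => rfl) x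

theorem ke_kc (g : C(X, Y)) (hg : MapsTo g A B) (a : X) (x : KC (CR Y B)) :
    ke A a (kc g hg x) = ke B (g a) x := KM_comp _ _ _ (fun _ => rfl) x

theorem ke_eq {a a' : X} (ha : a ∈ A) (ha' : a' ∈ A) (x : KC (CR X A)) :
    ke A a x = ke A a' x := by
  have : (CR.ev a : CR X A →ₐ[ℂ] ℂ).toRingHom = (CR.ev a' : CR X A →ₐ[ℂ] ℂ).toRingHom :=
    RingHom.ext fun f => f.2 a ha a' ha'
  rw [ke, ke, this]

theorem kp_const (g : C(X, Y)) (y : Y) (h : ∀ x, g x = y) (x : KC C(Y, ℂ)) :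
    kp g x = kk X (kv y x) :=
  by unfold kp kk kv; exact (KM_comp _ _ _ (by exact fun a => ContinuousMap.ext fun x => (congrArg a (h x)).symm) x).symm

/-- a class on a pair restricts to a constant on the subspace -/
theorem kp_ki (g : C(X, Y)) (hg : ∀ x, g x ∈ B) {b : Y} (hb : b ∈ B) (x : KC (CR Y B)) :
    kp g (ki B x) = kk X (ke B b x) :=
  KM_eq _ _ _ _ (fun a => ContinuousMap.ext fun x => a.2 _ (hg x) _ hb) x

theorem psi_kc (p : ℕ) [Fact p.Prime] (g : C(X, Y)) (hg : MapsTo g A B) (x : KC (CR Y B)) :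
    pC p A (kc g hg x) = kc g hg (pC p B x) := by
  have h := psi_KM (A := CR Y B) (B := CR X A) p (CR.comap g hg) (CR.comap g hg).toRingHom
    (fun _ => rfl) x
  exact h
theorem psi_ki (p : ℕ) [Fact p.Prime] (x : KC (CR X A)) :
    pX p X (ki A x) = ki A (pC p A x) := by
  have h := psi_KM (A := CR X A) (B := C(X, ℂ)) p (CR X A).val (CR X A).val.toRingHom
    (fun _ => rfl) x
  exact h
theorem psi_kp (p : ℕ) [Fact p.Prime] (g : C(X, Y)) (x : KC C(Y, ℂ)) :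
    pX p X (kp g x) = kp g (pX p Y x) := by
  unfold pX kp
  exact psi_KM p (ContinuousMap.compRightAlgHom ℂ ℂ g) _ (fun _ => rfl) x
theorem psi_kv (p : ℕ) [Fact p.Prime] (a : X) (x : KC C(X, ℂ)) :
    psi p ℂ (kv a x) = kv a (pX p X x) := by
  unfold pX kv
  exact psi_KM p (ContinuousMap.evalAlgHom ℂ ℂ a) _ (fun _ => rfl) x

theorem KM_bij {R S : Type} [CommRing R] [CommRing S] (φ : R →+* S) (h : Bijective φ) :
    Bijective (KM φ) := by
  let e := RingEquiv.ofBijective φ h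
  refine bijective_iff_has_inverse.2 ⟨KM e.symm.toRingHom, fun x => ?_, fun x => ?_⟩
  · exact (KM_comp _ _ (RingHom.id R) (fun a => e.symm_apply_apply a) x).trans
      (KM_id _ (fun _ => rfl) x)
  · exact (KM_comp _ _ (RingHom.id S) (fun a => e.apply_symm_apply a) x).trans
      (KM_id _ (fun _ => rfl) x)

/-- relative homeomorphisms, not necessarily onto -/
theorem comap_bij [CompactSpace X] [CompactSpace Y] [T2Space Y] (g : C(X, Y)) (hg : MapsTo g A B)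
    (hB : IsClosed B) {a : X} (ha : a ∈ A) (hs : ∀ y, y ∈ B ∨ y ∈ range g)
    (hA : ∀ x, g x ∈ B → x ∈ A) (hf : ∀ x z, g x = g z → x = z ∨ (x ∈ A ∧ z ∈ A)) :
    Bijective (CR.comap g hg) := by
  constructor
  · intro u v h
    have h' : ∀ x, u.1 (g x) = v.1 (g x) := fun x => congrArg (fun c : CR X A => c.1 x) h
    refine Subtype.ext (ContinuousMap.ext fun y => ?_)
    rcases hs y with hy | ⟨x, rfl⟩
    · rw [u.2 y hy _ (hg ha), v.2 y hy _ (hg ha), h']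
    · exact h' x
  · intro u
    have : CompactSpace B := isCompact_iff_compactSpace.1 hB.isCompact
    let p : C(X ⊕ B, Y) := ⟨Sum.elim g Subtype.val, by fun_prop⟩
    have hp : Surjective p := fun y => by
      rcases hs y with hy | ⟨x, rfl⟩
      · exact ⟨.inr ⟨y, hy⟩, rfl⟩
      · exact ⟨.inl x, rfl⟩
    have hq : Topology.IsQuotientMap p := (p.continuous.isClosedMap).isQuotientMap p.continuous hp
    let F : C(X ⊕ B, ℂ) := ⟨Sum.elim u.1 fun _ => u.1 a, by fun_prop⟩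
    have hF : FactorsThrough F p := by
      rintro (x | x) (z | z) h
      · rcases hf x z h with rfl | ⟨h1, h2⟩
        · rfl
        · exact u.2 _ h1 _ h2
      · exact u.2 _ (hA x (by change g x = z.1 at h; rw [h]; exact z.2)) _ ha
      · exact u.2 _ ha _ (hA z (by change x.1 = g z at h; rw [← h]; exact x.2))
      · rfl
    have hb : ∀ w, hq.lift F hF (p w) = F w := fun w =>
      congrArg (fun c : C(X ⊕ B, ℂ) => c w) (hq.lift_comp F hF)
    refine ⟨⟨hq.lift F hF, fun y hy y' hy' => ?_⟩, Subtype.ext (ContinuousMap.ext fun x => ?_)⟩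
    · exact (hb (.inr ⟨y, hy⟩)).trans (hb (.inr ⟨y', hy'⟩)).symm
    · exact hb (.inl x)

theorem kc_bij [CompactSpace X] [CompactSpace Y] [T2Space Y] (g : C(X, Y)) (hg : MapsTo g A B)
    (hB : IsClosed B) {a : X} (ha : a ∈ A) (hs : ∀ y, y ∈ B ∨ y ∈ range g)
    (hA : ∀ x, g x ∈ B → x ∈ A) (hf : ∀ x z, g x = g z → x = z ∨ (x ∈ A ∧ z ∈ A)) :
    Bijective (kc g hg) := KM_bij _ (comap_bij g hg hB ha hs hA hf)

theorem kp_bij [CompactSpace X] [T2Space Y] (g : C(X, Y)) (hg : Bijective g) :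
    Bijective (kp g) := by
  let e : X ≃ₜ Y := Continuous.homeoOfEquivCompactToT2 (f := Equiv.ofBijective g hg) g.continuous
  refine bijective_iff_has_inverse.2 ⟨kp ⟨e.symm, e.symm.continuous⟩, fun x => ?_, fun x => ?_⟩
  · exact (kp_kp _ _ (.id Y) (fun y => e.apply_symm_apply y) x).trans (kp_id _ (fun _ => rfl) x)
  · exact (kp_kp _ _ (.id X) (fun y => e.symm_apply_apply y) x).trans (kp_id _ (fun _ => rfl) x)

theorem ki_bij (y : Y) : Bijective (ki ({y} : Set Y)) :=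
  KM_bij _ ⟨Subtype.val_injective, fun a => ⟨⟨a, fun _ h _ h' => by rw [h, h']⟩, rfl⟩⟩

/-- homotopy invariance for pairs -/
theorem kc_ht [CompactSpace X] (H : C(I × X, Y)) (hH : ∀ t, ∀ x ∈ A, H (t, x) ∈ B)
    (g : C(X, Y)) (hg : MapsTo g A B) (g' : C(X, Y)) (hg' : MapsTo g' A B)
    (h0 : ∀ x, H (0, x) = g x) (h1 : ∀ x, H (1, x) = g' x) (x : KC (CR Y B)) :
    kc g hg x = kc g' hg' x := by
  have key := HInv313.map_apply_eq_of_homotopy (A := CR Y B) (B := CR X A)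
    (fun t => (CR.comap (H.curry t) (fun x hx => hH t x hx)).toRingHom) (fun f => by
      refine Continuous.subtype_mk ?_ _
      exact (ContinuousMap.continuous_postcomp f.1).comp H.curry.continuous) x
  have e0 : (CR.comap (A := A) (B := B) (H.curry 0) (fun x hx => hH 0 x hx)).toRingHom =
      (CR.comap g hg).toRingHom :=
    RingHom.ext fun a => Subtype.ext (ContinuousMap.ext fun x => congrArg a.1 (h0 x))
  have e1 : (CR.comap (A := A) (B := B) (H.curry 1) (fun x hx => hH 1 x hx)).toRingHom =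
      (CR.comap g' hg').toRingHom :=
    RingHom.ext fun a => Subtype.ext (ContinuousMap.ext fun x => congrArg a.1 (h1 x))
  simp only [e0, e1] at key
  exact key

theorem kp_ht [CompactSpace X] (H : C(I × X, Y)) (g g' : C(X, Y))
    (h0 : ∀ x, H (0, x) = g x) (h1 : ∀ x, H (1, x) = g' x) (x : KC C(Y, ℂ)) :
    kp g x = kp g' x := by
  have key := HInv313.map_compHom_eq (B := ℂ) (g₀ := g) (g₁ := g') ⟨H, h0, h1⟩
  exact DFunLike.congr_fun key x

theorem kv_path (γ : C(I, X)) (x : KC C(X, ℂ)) : kv (γ 0) x = kv (γ 1) x :=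
  HInv313.map_apply_eq_of_homotopy (A := C(X, ℂ)) (B := ℂ)
    (fun t => (ContinuousMap.evalAlgHom ℂ ℂ (γ t)).toRingHom)
    (fun f => f.continuous.comp γ.continuous) x

/-- exactness -/
theorem rel_of [CompactSpace X] [T2Space X] (hA : IsClosed A) {a : X} (ha : a ∈ A)
    {x : KC C(X, ℂ)} (hx : kp (⟨Subtype.val, continuous_subtype_val⟩ : C(A, X)) x = 0) :
    ∃ z : KC (CR X A), ki A z = x ∧ ke A a z = 0 := E1 hA ha (x := x) hx

theorem ki_inj [CompactSpace X] [T2Space X] [CompactSpace A] (hA : IsClosed A)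
    (hK : K1Triv C(A, ℂ)) {a : X} (ha : a ∈ A) {z : KC (CR X A)} (hz : ki A z = 0) : z = 0 :=
  E1_inj' hA hK ha (x := z) hz

/-! ## external and relative products -/

/-- external product -/
def ex {a : X} (ha : a ∈ A) {b : Y} (hb : b ∈ B) (x : KC (CR X A)) (y : KC (CR Y B)) :
    KC (CR (X × Y) (smashSet A B)) := (smCR ha hb).ext x y

theorem ex_ke {a : X} (ha : a ∈ A) {b : Y} (hb : b ∈ B) {x : KC (CR X A)} {y : KC (CR Y B)}
    (hx : ke A a x = 0) (hy : ke B b y = 0) : ke (smashSet A B) (a, b) (ex ha hb x y) = 0 :=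
  (smCR ha hb).ev_ext (x := x) (y := y) hx hy

theorem ex_ki {a : X} (ha : a ∈ A) {b : Y} (hb : b ∈ B) {x : KC (CR X A)} {y : KC (CR Y B)}
    (hx : ke A a x = 0) (hy : ke B b y = 0) : ki (smashSet A B) (ex ha hb x y) =
      kp ContinuousMap.fst (ki A x) * kp ContinuousMap.snd (ki B y) := by
  have h : KM (smCR ha hb).inc.toRingHom (ex ha hb x y) =
      KM (pdCR (A := A) (B := B) a b).i1.toRingHom x *
        KM (pdCR (A := A) (B := B) a b).i2.toRingHom y :=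
    (smCR ha hb).inc_ext (x := x) (y := y) hx hy
  have h2 := congrArg (KM (A := PA A B) (B := C(X × Y, ℂ)) (PA A B).val.toRingHom) h
  rw [map_mul] at h2
  have e0 : KM (A := PA A B) (B := C(X × Y, ℂ)) (PA A B).val.toRingHom
      (KM (smCR ha hb).inc.toRingHom (ex ha hb x y)) = ki (smashSet A B) (ex ha hb x y) := by
    unfold ki; exact KM_comp _ _ _ (by exact fun _ => rfl) _
  have e1 : KM (A := PA A B) (B := C(X × Y, ℂ)) (PA A B).val.toRingHom
      (KM (pdCR (A := A) (B := B) a b).i1.toRingHom x) = kp ContinuousMap.fst (ki A x) := by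
    unfold ki kp; exact KM_eq _ _ _ _ (by exact fun _ => rfl) x
  have e2 : KM (A := PA A B) (B := C(X × Y, ℂ)) (PA A B).val.toRingHom
      (KM (pdCR (A := A) (B := B) a b).i2.toRingHom y) = kp ContinuousMap.snd (ki B y) := by
    unfold ki kp; exact KM_eq _ _ _ _ (by exact fun _ => rfl) y
  rw [← e0, h2, e1, e2]

theorem ex_psi (p : ℕ) [Fact p.Prime] {a : X} (ha : a ∈ A) {b : Y} (hb : b ∈ B)
    {x : KC (CR X A)} {y : KC (CR Y B)} (hx : ke A a x = 0) (hy : ke B b y = 0) :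
    pC p (smashSet A B) (ex ha hb x y) = ex ha hb (pC p A x) (pC p B y) := by
  unfold pC ex
  exact psi_ext (smCR ha hb) p (x := x) (y := y) hx hy

theorem ex_smul {a : X} (ha : a ∈ A) {b : Y} (hb : b ∈ B)
    {x : KC (CR X A)} {y : KC (CR Y B)} (hx : ke A a x = 0) (hy : ke B b y = 0) (m n : ℤ) :
    ex ha hb (m • x) (n • y) = (m * n) • ex ha hb x y := by
  have h1 : ke B b (n • y) = 0 := by rw [map_zsmul, hy, smul_zero]
  have e1 : ex ha hb (m • x) (n • y) = m • ex ha hb x (n • y) :=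
    (smCR ha hb).ext_zsmul_left (x := x) (y := n • y) hx h1 m
  have e2 : ex ha hb x (n • y) = n • ex ha hb x y :=
    (smCR ha hb).ext_zsmul_right (x := x) (y := y) hx hy n
  rw [e1, e2, mul_smul]

variable {X' Y' : Type} [TopologicalSpace X'] [TopologicalSpace Y'] {A' : Set X'} {B' : Set Y'}

theorem mapsTo_sm {f : C(X', X)} (hf : MapsTo f A' A) {g : C(Y', Y)} (hg : MapsTo g B' B) :
    MapsTo (f.prodMap g) (smashSet A' B') (smashSet A B) :=
  fun _ h => h.imp (fun h => hf h) (fun h => hg h)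

/-- pull-back on the product algebras -/
def paMap (f : C(X', X)) (hf : MapsTo f A' A) (g : C(Y', Y)) (hg : MapsTo g B' B) :
    PA A B →ₐ[ℂ] PA A' B' :=
  ((ContinuousMap.compRightAlgHom ℂ ℂ (f.prodMap g)).comp (PA A B).val).codRestrict (PA A' B')
    fun F => ⟨fun y x hx x' hx' => F.2.1 (g y) _ (hf hx) _ (hf hx'),
      fun x y hy y' hy' => F.2.2 (f x) _ (hg hy) _ (hg hy')⟩

theorem ex_nat {a : X} (ha : a ∈ A) {b : Y} (hb : b ∈ B) {a' : X'} (ha' : a' ∈ A') {b' : Y'}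
    (hb' : b' ∈ B') (f : C(X', X)) (hf : MapsTo f A' A) (g : C(Y', Y)) (hg : MapsTo g B' B)
    {x : KC (CR X A)} {y : KC (CR Y B)} (hx : ke A a x = 0) (hy : ke B b y = 0) :
    kc (f.prodMap g) (mapsTo_sm hf hg) (ex ha hb x y) = ex ha' hb' (kc f hf x) (kc g hg y) :=
  map_ext (smCR ha hb) (smCR ha' hb') (CR.comap f hf).toRingHom (CR.comap g hg).toRingHom
    (paMap f hf g hg).toRingHom (CR.comap (f.prodMap g) (mapsTo_sm hf hg)).toRingHom
    (fun _ => rfl) (fun _ => rfl) (fun _ => rfl)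
    (fun s => s.2 _ (Or.inl (hf ha')) _ (Or.inl ha))
    (fun s => s.2 _ (hf ha') _ ha) (fun s => s.2 _ (hg hb') _ hb) (x := x) (y := y) hx hy

end names

end Crest.Agent.N218.Hf
end
end

-- ▼ part N218/Hf/Core

/-!
# Row 218, block D3, leaf HOPF (helper39): Hopf invariant one gives an odd `ψ³`-defect
-/

set_option autoImplicit false
set_option linter.unusedVariables false
set_option linter.unusedSectionVars false

open scoped unitInterval Topology
open Set Function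

noncomputable section

namespace Crest.Agent.N218.Hf

open Crest.Agent.R204 H472 Ex837 ExM515 HMain515
open K357 (K0 psi psi_map psi_comm psi_two)

/-- transport of a collapse map -/
def collMap {N Y Y' : Type} [TopologicalSpace Y] [TopologicalSpace Y'] {y : Y}
    (c : Collapse N Y y) (h : C(Y, Y')) (hb : Bijective h) : Collapse N Y' (h y) where
  p := h.comp c.p
  surj := hb.2.comp c.surj
  fib x z e := c.fib x z (hb.1 e)
  bd x := ⟨fun e => (c.bd x).1 (hb.1 e), fun e => congrArg h ((c.bd x).2 e)⟩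

/-- abstract data of a projective plane -/
structure HD (D T Y : Type) [TopologicalSpace D] [TopologicalSpace T] [TopologicalSpace Y]
    (y : Y) where
  SD : Set D
  cSD : IsClosed SD
  e : D
  he : e ∈ SD
  C : C(I × D, D)
  C0 : ∀ x, C (0, x) = x
  C1 : ∀ x, C (1, x) = e
  κ : C(D, Y)
  κs : Surjective κ
  κy : ∀ x, κ x = y ↔ x ∈ SD
  κf : ∀ x z, κ x = κ z → x = z ∨ (x ∈ SD ∧ z ∈ SD)
  Q : C(D × D, T)
  Qs : Surjective Q
  S : Set T
  Bm : Set T
  Bp : Set T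
  cm : IsClosed Bm
  cp : IsClosed Bp
  hS : S = Bm ∪ Bp
  QS : ∀ p, Q p ∈ S → p ∈ smashSet SD SD
  Qf : ∀ p q, Q p = Q q → p = q ∨ (p ∈ smashSet SD SD ∧ q ∈ smashSet SD SD)
  Qm : ∀ x ∈ SD, ∀ z, Q (x, z) ∈ Bm
  Qp : ∀ x, ∀ z ∈ SD, Q (x, z) ∈ Bp
  i1 : Injective fun x => Q (x, e)
  r1 : ∀ z ∈ Bp, ∃ x, Q (x, e) = z
  m1 : ∀ x, Q (x, e) ∈ Bm → x ∈ SD
  i2 : Injective fun x => Q (e, x)
  r2 : ∀ z ∈ Bm, ∃ x, Q (e, x) = z
  m2 : ∀ x, Q (e, x) ∈ Bp → x ∈ SD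
  j : C(Y, T)
  ji : Injective j
  jr : range j = S

instance fact2 : Fact (Nat.Prime 2) := ⟨Nat.prime_two⟩
instance fact3' : Fact (Nat.Prime 3) := ⟨Nat.prime_three⟩

/-- inclusion of a subset -/
abbrev vl {T : Type} [TopologicalSpace T] (A : Set T) : C(A, T) :=
  ⟨Subtype.val, continuous_subtype_val⟩

theorem KIn_gn {Y : Type} [TopologicalSpace Y] [CompactSpace Y] {y : Y} {a : ℕ} (K : KIn a y) :
    Gn (kv y) K.b := ⟨K.hb, K.gen, K.free⟩

namespace HD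
variable {D T Y : Type} [TopologicalSpace D] [TopologicalSpace T] [TopologicalSpace Y]
  [CompactSpace D] [T2Space D] [CompactSpace T] [T2Space T] [CompactSpace Y] [T2Space Y]
  {y : Y} (h : HD D T Y y)

theorem cS : IsClosed h.S := h.hS ▸ h.cm.union h.cp

theorem cbd : IsClosed (smashSet h.SD h.SD) :=
  (h.cSD.preimage continuous_fst).union (h.cSD.preimage continuous_snd)

theorem QS' : MapsTo h.Q (smashSet h.SD h.SD) h.S := by
  rintro ⟨x, z⟩ (hx | hz)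
  · exact h.hS ▸ Or.inl (h.Qm x hx z)
  · exact h.hS ▸ Or.inr (h.Qp x z hz)

include h in
theorem kv_Y (y' : Y) (x : KC C(Y, ℂ)) : kv y' x = kv y x := by
  obtain ⟨d, rfl⟩ := h.κs y'
  have := kv_path (⟨fun t => h.κ (h.C (t, d)), by fun_prop⟩ : C(I, Y)) x
  simp only [ContinuousMap.coe_mk, h.C0, h.C1, (h.κy h.e).2 h.he] at this
  exact this

theorem kp_D {X : Type} [TopologicalSpace X] (g : C(D, X)) {x : KC C(X, ℂ)}
    (hx : kv (g h.e) x = 0) : kp g x = 0 := by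
  rw [kp_ht (g.comp h.C) g (.const D (g h.e)) (fun d => congrArg g (h.C0 d))
    (fun d => congrArg g (h.C1 d)), kp_const _ (g h.e) (fun _ => rfl), hx, map_zero]

/-- the sphere at infinity -/
def jS : C(Y, h.S) := ⟨fun a => ⟨h.j a, h.jr ▸ mem_range_self a⟩, by fun_prop⟩

theorem jS_bij : Bijective h.jS :=
  ⟨fun a b e => h.ji (congrArg Subtype.val e), fun ⟨z, hz⟩ => by
    obtain ⟨a, rfl⟩ : z ∈ range h.j := h.jr ▸ hz
    exact ⟨a, rfl⟩⟩

theorem κm : MapsTo h.κ h.SD {y} := fun x hx => (h.κy x).2 hx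

theorem κ_bij : Bijective (kc h.κ h.κm) :=
  kc_bij _ _ isClosed_singleton h.he (fun z => .inr (h.κs z)) (fun x hx => (h.κy x).1 hx) h.κf

theorem κκ_bij : Bijective (kc (h.κ.prodMap h.κ) (mapsTo_sm h.κm h.κm)) := by
  refine kc_bij _ _ ((isClosed_singleton.preimage continuous_fst).union
    (isClosed_singleton.preimage continuous_snd)) (a := (h.e, h.e)) (Or.inl h.he)
    (fun z => .inr ((h.κs.prodMap h.κs) z))
    (fun x hx => hx.imp (fun hx => (h.κy _).1 hx) fun hx => (h.κy _).1 hx) fun x z e => ?_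
  rcases h.κf _ _ (congrArg Prod.fst e) with h1 | ⟨h1, h1'⟩
  · rcases h.κf _ _ (congrArg Prod.snd e) with h2 | ⟨h2, h2'⟩
    · exact .inl (Prod.ext h1 h2)
    · exact .inr ⟨.inr h2, .inr h2'⟩
  · exact .inr ⟨.inl h1, .inl h1'⟩

/-- the K-theory of the disc modulo its boundary -/
theorem disc {a : ℕ} (K : KIn a y) : ∃ g : KC (CR D h.SD), Gn (ke h.SD h.e) g ∧
    pC 2 h.SD g = (2 : ℤ) ^ a • g ∧ pC 3 h.SD g = (3 : ℤ) ^ a • g ∧
    Gn (ke (smashSet h.SD h.SD) (h.e, h.e)) (ex h.he h.he g g) := by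
  obtain ⟨b, hb⟩ := (ki_bij y).2 K.b
  have hy : y ∈ ({y} : Set Y) := rfl
  have g0 : Gn (ke {y} y) b :=
    Gn.of_map (ki {y}).toAddMonoidHom (ki_bij y) (fun x => kv_ki y x) (hb ▸ KIn_gn K)
  have he : h.κ h.e = y := (h.κy _).2 h.he
  refine ⟨kc h.κ h.κm b, g0.map (kc h.κ h.κm).toAddMonoidHom h.κ_bij
    (fun x => (ke_kc _ _ _ x).trans (by rw [he])), ?_, ?_, ?_⟩
  · rw [psi_kc, ← map_zsmul]
    congr 1
    apply (ki_bij y).1
    rw [← psi_ki, map_zsmul, hb]; exact K.psi2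
  · rw [psi_kc, ← map_zsmul]
    congr 1
    apply (ki_bij y).1
    rw [← psi_ki, map_zsmul, hb]; exact K.psi3
  · rw [← ex_nat hy hy h.he h.he _ h.κm _ h.κm g0.1 g0.1]
    refine Gn.map (ε := ke (smashSet {y} {y}) (y, y)) ?_
      (kc (h.κ.prodMap h.κ) (mapsTo_sm h.κm h.κm)).toAddMonoidHom h.κκ_bij
      (fun x => (ke_kc _ _ _ x).trans (by
        change ke _ (h.κ h.e, h.κ h.e) x = _
        rw [he]))
    have h1 := ex_ki hy hy g0.1 g0.1
    rw [hb] at h1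
    have e : ex hy hy b b = (smC y y).ext K.b K.b :=
      (smC y y).eq_ext (x := K.b) (y := K.b) K.hb K.hb (s := ex hy hy b b) h1
        (ex_ke hy hy g0.1 g0.1)
    rw [e]
    exact ⟨(smC y y).ev_ext (x := K.b) (y := K.b) K.hb K.hb, K.sgen, K.sfree⟩

theorem exists_xi (hbd : ∀ x : KC C(smashSet h.SD h.SD, ℂ), (∀ p, kv p x = 0) → x = 0)
    {b : KC C(h.S, ℂ)} (hb : ∀ z, kv z b = 0) :
    ∃ ξ : KC C(T, ℂ), (∀ t, kv t ξ = 0) ∧ kp (vl h.S) ξ = b := by
  let H : C(smashSet h.SD h.SD, h.S) := ⟨fun p => ⟨h.Q p, h.QS' p.2⟩, by fun_prop⟩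
  have hq : Topology.IsQuotientMap h.Q :=
    (h.Q.continuous.isClosedMap).isQuotientMap h.Q.continuous h.Qs
  let W : Sq C(T, ℂ) C(D × D, ℂ) C(h.S, ℂ) C(smashSet h.SD h.SD, ℂ) :=
    { p1 := (ContinuousMap.compRightAlgHom ℂ ℂ h.Q).toRingHom
      p2 := (ContinuousMap.compRightAlgHom ℂ ℂ (vl h.S)).toRingHom
      al := (ContinuousMap.compRightAlgHom ℂ ℂ (vl _)).toRingHom
      be := (ContinuousMap.compRightAlgHom ℂ ℂ H).toRingHom
      comm := fun _ => rfl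
      lift := fun a b e => by
        have e' : ∀ p (hp : p ∈ smashSet h.SD h.SD), a p = b ⟨h.Q p, h.QS' hp⟩ := fun p hp =>
          congrArg (fun c : C(smashSet h.SD h.SD, ℂ) => c ⟨p, hp⟩) e
        have hF : FactorsThrough a h.Q := fun p q hpq => by
          rcases h.Qf p q hpq with rfl | ⟨h1, h2⟩
          · rfl
          · rw [e' p h1, e' q h2]; exact congrArg b (Subtype.ext hpq)
        have hb : ∀ w, hq.lift a hF (h.Q w) = a w := fun w =>
          congrArg (fun c : C(D × D, ℂ) => c w) (hq.lift_comp a hF)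
        refine ⟨hq.lift a hF, ContinuousMap.ext hb, ContinuousMap.ext ?_⟩
        rintro ⟨z, hz⟩
        obtain ⟨p, rfl⟩ := h.Qs z
        exact (hb p).trans (e' p (h.QS p hz))
      inj := fun u v e _ => ContinuousMap.ext fun z => by
        obtain ⟨p, rfl⟩ := h.Qs z
        exact congrArg (fun c : C(D × D, ℂ) => c p) e }
  have h0 : kp H b = 0 := hbd _ fun p => (kv_kp H p b).trans (hb _)
  obtain ⟨ξ, h1, h2⟩ := W.K0_mid (rst_surjective h.cbd) (a := 0) (b := b)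
    ((map_zero _).trans h0.symm)
  refine ⟨ξ, fun t => ?_, h2⟩
  obtain ⟨p, rfl⟩ := h.Qs t
  have h1' : kp h.Q ξ = 0 := h1
  rw [← kv_kp, h1', map_zero]

/-- lifting to the pair `(T, B)` -/
theorem half {B B' : Set T} (cB : IsClosed B) (hS : h.S = B ∪ B') (ι ι' : C(D, T))
    (i1 : Injective ι) (r1 : ∀ z ∈ B', ∃ x, ι x = z) (s1 : ∀ x, ι x ∈ B')
    (m1 : ∀ x, ι x ∈ B → x ∈ h.SD) (m2 : MapsTo ι h.SD B)
    (i2 : Injective ι') (r2 : ∀ z ∈ B, ∃ x, ι' x = z) (s2 : ∀ x, ι' x ∈ B)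
    {g : KC (CR D h.SD)} (hg : Gn (ke h.SD h.e) g) {ξ : KC C(T, ℂ)} (hξ : ∀ t, kv t ξ = 0)
    (hb : ∀ z, Gn (kv z) (kp (vl h.S) ξ)) :
    ∃ x : KC (CR T B), ki B x = ξ ∧ ke B (ι h.e) x = 0 ∧ Gn (ke h.SD h.e) (kc ι m2 x) := by
  let k : C(D, B) := ⟨fun x => ⟨ι' x, s2 x⟩, by fun_prop⟩
  have hk : Bijective k := ⟨fun a b e => i2 (congrArg Subtype.val e), fun ⟨z, hz⟩ => by
    obtain ⟨x, rfl⟩ := r2 z hz
    exact ⟨x, rfl⟩⟩
  have h0 : kp (vl B) ξ = 0 := (kp_bij k hk).1 (by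
    rw [kp_kp k (vl B) ι' (fun _ => rfl), map_zero]
    exact h.kp_D ι' (hξ _))
  obtain ⟨x, hx, hx0⟩ := rel_of cB (m2 h.he) h0
  refine ⟨x, hx, hx0, ?_⟩
  have : CompactSpace h.S := isCompact_iff_compactSpace.1 h.cS.isCompact
  let l : C(D, h.S) := ⟨fun x => ⟨ι x, hS ▸ Or.inr (s1 x)⟩, by fun_prop⟩
  have hl : MapsTo l h.SD (Subtype.val ⁻¹' B) := fun x hx => m2 hx
  have hv : MapsTo (vl h.S) (Subtype.val ⁻¹' B) B := fun x hx => hx
  have lb : Bijective (kc l hl) := by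
    refine kc_bij l hl (cB.preimage continuous_subtype_val) h.he ?_ (fun x hx => m1 x hx)
      fun x z e => .inl (i1 (congrArg Subtype.val e))
    rintro ⟨z, hz⟩
    rcases hS ▸ hz with hz' | hz'
    · exact .inl hz'
    · obtain ⟨x, rfl⟩ := r1 z hz'
      exact .inr ⟨x, rfl⟩
  have el : ∀ x, ke h.SD h.e (kc l hl x) = ke (Subtype.val ⁻¹' B) (l h.e) x :=
    fun x => ke_kc _ _ _ x
  obtain ⟨g', rfl⟩ := lb.2 g
  have hg' : Gn (ke (Subtype.val ⁻¹' B) (l h.e)) g' :=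
    Gn.of_map (kc l hl).toAddMonoidHom lb el hg
  rw [← kc_kc l hl (vl h.S) hv ι m2 (fun _ => rfl)]
  refine Gn.map ?_ (kc l hl).toAddMonoidHom lb el
  refine hg'.of_to (hb (l h.e)) (ki _).toAddMonoidHom (fun x => kv_ki _ x)
    ((ke_kc _ _ _ x).trans hx0) ?_
  change ki _ (kc (vl h.S) hv x) = _
  rw [ki_kc, hx]

theorem Q_bij : Bijective (kc h.Q h.QS') :=
  kc_bij _ _ h.cS (a := (h.e, h.e)) (Or.inl h.he) (fun z => .inr (h.Qs z)) h.QS h.Qf

/-- the square of the Thom class -/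
theorem square {a : ℕ} (K : KIn a y) {ξ : KC C(T, ℂ)} (hξ : ∀ t, kv t ξ = 0)
    (hb : ∀ z, Gn (kv z) (kp (vl h.S) ξ)) :
    ∃ η : KC (CR T h.S), Gn (ke h.S (h.Q (h.e, h.e))) η ∧ ki h.S η = ξ * ξ ∧
      pC 2 h.S η = ((2 : ℤ) ^ a * 2 ^ a) • η ∧ pC 3 h.S η = ((3 : ℤ) ^ a * 3 ^ a) • η := by
  obtain ⟨g, hg, p2, p3, hgg⟩ := h.disc K
  let ι : C(D, T) := ⟨fun x => h.Q (x, h.e), by fun_prop⟩
  let ι' : C(D, T) := ⟨fun x => h.Q (h.e, x), by fun_prop⟩
  have mι : MapsTo ι h.SD h.Bm := fun x hx => h.Qm x hx _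
  have mι' : MapsTo ι' h.SD h.Bp := fun x hx => h.Qp _ x hx
  obtain ⟨u, hu, u0, gu⟩ := h.half h.cm h.hS ι ι' h.i1 h.r1 (fun x => h.Qp x _ h.he) h.m1 mι
    h.i2 h.r2 (fun x => h.Qm _ h.he x) hg hξ hb
  obtain ⟨v, hv, v0, gv⟩ := h.half h.cp (h.hS.trans (union_comm _ _)) ι' ι h.i2 h.r2
    (fun x => h.Qm _ h.he x) h.m2 mι' h.i1 h.r1 (fun x => h.Qp x _ h.he) hg hξ hb
  let Δ : C(T, T × T) := ⟨fun t => (t, t), by fun_prop⟩
  have hΔ : MapsTo Δ h.S (smashSet h.Bm h.Bp) := fun t ht => by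
    rw [h.hS] at ht; exact ht
  obtain ⟨k, hk, ek⟩ := hg.sign gu
  obtain ⟨l, hl, el⟩ := hg.sign gv
  have key : kc h.Q h.QS' (kc Δ hΔ (ex (mι h.he) (mι' h.he) u v)) =
      (k * l) • ex h.he h.he g g := by
    rw [kc_kc h.Q h.QS' Δ hΔ (Δ.comp h.Q) (hΔ.comp h.QS') (fun _ => rfl),
      kc_ht (⟨fun p => (h.Q (p.2.1, h.C (p.1, p.2.2)), h.Q (h.C (p.1, p.2.1), p.2.2)),
        by fun_prop⟩ : C(I × (D × D), T × T))
        (fun t p hp => hp.imp (fun hp => h.Qm _ hp _) fun hp => h.Qp _ _ hp)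
        (Δ.comp h.Q) (hΔ.comp h.QS') (ι.prodMap ι') (mapsTo_sm mι mι')
        (fun p => by simp only [ContinuousMap.coe_mk, h.C0]; rfl)
        (fun p => by simp only [ContinuousMap.coe_mk, h.C1]; rfl),
      ex_nat (mι h.he) (mι' h.he) h.he h.he ι mι ι' mι' u0 v0, ek, el,
      ex_smul h.he h.he hg.1 hg.1]
  refine ⟨kc Δ hΔ (ex (mι h.he) (mι' h.he) u v), ?_, ?_, ?_, ?_⟩
  · refine Gn.of_map (δ := ke (smashSet h.SD h.SD) (h.e, h.e)) (kc h.Q h.QS').toAddMonoidHom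
      h.Q_bij (fun x => ke_kc _ _ _ x) ?_
    refine hgg.unit ?_ key (hk.mul hl)
    change ke _ _ (kc h.Q h.QS' _) = 0
    rw [key, map_zsmul, hgg.1, smul_zero]
  · rw [ki_kc, ex_ki _ _ u0 v0, map_mul, hu, hv, kp_kp Δ _ (.id T) (fun _ => rfl),
      kp_kp Δ _ (.id T) (fun _ => rfl), kp_id _ (fun _ => rfl)]
  · apply h.Q_bij.1
    rw [← psi_kc, map_zsmul, key, map_zsmul, ex_psi _ _ _ hg.1 hg.1, p2,
      ex_smul _ _ hg.1 hg.1, smul_comm]
  · apply h.Q_bij.1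
    rw [← psi_kc, map_zsmul, key, map_zsmul, ex_psi _ _ _ hg.1 hg.1, p3,
      ex_smul _ _ hg.1 hg.1, smul_comm]

end HD

/-- the algebra -/
theorem alg {R : Type} [CommRing R] (p2 p3 : R →+* R) (ξ : R) (ν μ n k : ℤ) (y : R)
    (ind : ∀ n k : ℤ, n • ξ + k • (ξ * ξ) = 0 → k = 0)
    (h2 : p2 ξ = (2 : ℤ) ^ 4 • ξ + ν • (ξ * ξ)) (h3 : p3 ξ = (3 : ℤ) ^ 4 • ξ + μ • (ξ * ξ))
    (s2 : p2 (ξ * ξ) = ((2 : ℤ) ^ 4 * 2 ^ 4) • (ξ * ξ))
    (s3 : p3 (ξ * ξ) = ((3 : ℤ) ^ 4 * 3 ^ 4) • (ξ * ξ))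
    (hc : p2 (p3 ξ) = p3 (p2 ξ)) (hy : p2 ξ = ξ ^ 2 + 2 * y) (ey : y = n • ξ + k • (ξ * ξ)) :
    Odd μ := by
  have e1 : ν - 1 - 2 * k = 0 := ind (16 - 2 * n) _ (by
    rw [ey, h2] at hy
    simp only [zsmul_eq_mul] at hy ⊢
    push_cast at hy ⊢
    linear_combination hy)
  have e2 : 81 * ν + 256 * μ - 16 * μ - 6561 * ν = 0 := ind 0 _ (by
    rw [h3, h2, map_add, map_add, map_zsmul, map_zsmul, map_zsmul, map_zsmul, h2, h3, s2, s3] at hc
    simp only [zsmul_eq_mul] at hc ⊢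
    push_cast at hc ⊢
    linear_combination hc)
  exact ⟨27 * k + 13, by omega⟩

theorem alg2 {R S : Type} [CommRing R] [CommRing S] (ε : R →+* S) (p : S →+* S) {ξ w x : R}
    (h0 : ε ξ = 0) (h1 : p (ε ξ) = ε x) (hw : x = ξ ^ 2 + 2 * w) : 2 * ε w = 0 := by
  rw [hw, map_add, map_pow, map_mul, h0, map_zero, map_ofNat] at h1
  linear_combination -h1

theorem pX_comm (T : Type) [TopologicalSpace T] (x : KC C(T, ℂ)) :
    pX 2 T (pX 3 T x) = pX 3 T (pX 2 T x) :=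
  psi_comm (p := 2) (q := 3) (A := C(T, ℂ)) (by norm_num) x

theorem e81 : (3 : ℤ) ^ 4 = 81 := by norm_num

namespace HD
variable {D T Y : Type} [TopologicalSpace D] [TopologicalSpace T] [TopologicalSpace Y]
  [CompactSpace D] [T2Space D] [CompactSpace T] [T2Space T] [CompactSpace Y] [T2Space Y]
  {y : Y} (h : HD D T Y y)

/-- **the `ψ³`-defect is odd** -/
theorem core (c : Collapse (Fin (2 * 4)) Y y)
    (hbd : ∀ x : KC C(smashSet h.SD h.SD, ℂ), (∀ p, kv p x = 0) → x = 0)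
    {b : KC C(Y, ℂ)} (hb : Gn (kv y) b) :
    ∃ (ξ : KC C(T, ℂ)) (η : KC (CR T h.S)) (μ : ℤ), Odd μ ∧ kp h.j ξ = b ∧ (∀ t, kv t ξ = 0) ∧
      Gn (ke h.S (h.j y)) η ∧ pX 3 T ξ = (81 : ℤ) • ξ + μ • ki h.S η := by
  have K : KIn 4 y := Bt837.kIn (by norm_num) c
  have : CompactSpace h.S := isCompact_iff_compactSpace.1 h.cS.isCompact
  have k1 : K1Triv C(h.S, ℂ) :=
    BottK369.k1Triv_even (a := 4) (by norm_num) (collMap c h.jS h.jS_bij)
  have jb := kp_bij h.jS h.jS_bij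
  obtain ⟨b', rfl⟩ := jb.2 b
  have gb : ∀ z, Gn (kv z) b' := fun z => by
    obtain ⟨a, rfl⟩ := h.jS_bij.2 z
    exact Gn.of_map (kp h.jS).toAddMonoidHom jb
      (fun x => (h.kv_Y a _).symm.trans (kv_kp _ a x)) hb
  obtain ⟨ξ, hξ, rfl⟩ := h.exists_xi hbd fun z => (gb z).1
  obtain ⟨η, gη, hη, q2, q3⟩ := h.square K hξ gb
  have hq : h.Q (h.e, h.e) ∈ h.S := h.QS' (Or.inl h.he)
  have hj : h.j y ∈ h.S := (h.jS y).2
  have r0 : kp (vl h.S) (ξ * ξ) = 0 := by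
    rw [← hη, kp_ki _ (fun x => x.2) hq, gη.1, map_zero]
  have dec : ∀ (x : KC C(T, ℂ)) (n : ℤ), kp (vl h.S) x = n • kp (vl h.S) ξ →
      ∃ k : ℤ, x = n • ξ + k • (ξ * ξ) := fun x n e => by
    obtain ⟨z, hz, z0⟩ := rel_of h.cS hq (x := x - n • ξ)
      (by rw [map_sub, map_zsmul]; exact sub_eq_zero.2 e)
    obtain ⟨k, rfl⟩ := gη.2.1 z z0
    exact ⟨k, by rw [← hη, ← map_zsmul, hz]; abel⟩
  have ind : ∀ n k : ℤ, n • ξ + k • (ξ * ξ) = 0 → k = 0 := fun n k e => by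
    have e1 := congrArg (kp (vl h.S)) e
    rw [map_add, map_zsmul, map_zsmul, r0, smul_zero, add_zero, map_zero] at e1
    rw [(gb ⟨_, hq⟩).2.2 n e1, zero_smul, zero_add, ← hη, ← map_zsmul] at e
    exact gη.2.2 k (ki_inj h.cS k1 hq e)
  obtain ⟨k, -, ek⟩ := (KIn_gn K).sign hb
  have s2 : pX 2 Y K.b = (2 : ℤ) ^ 4 • K.b := K.psi2
  have s3 : pX 3 Y K.b = (3 : ℤ) ^ 4 • K.b := K.psi3
  obtain ⟨ν, h2⟩ := dec (pX 2 T ξ) (2 ^ 4) (jb.1 (by
    rw [← psi_kp, ← psi_kp, map_zsmul, ek, map_zsmul, s2, smul_comm]))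
  obtain ⟨μ, h3⟩ := dec (pX 3 T ξ) (3 ^ 4) (jb.1 (by
    rw [← psi_kp, ← psi_kp, map_zsmul, ek, map_zsmul, s3, smul_comm]))
  obtain ⟨w, hw⟩ : ∃ w, pX 2 T ξ = ξ ^ 2 + 2 * w := psi_two ξ
  have w0 : kv (h.Q (h.e, h.e)) w = 0 :=
    K0_field_two _ (alg2 _ (psi 2 ℂ) (hξ _) (psi_kv 2 _ ξ) hw)
  obtain ⟨n, hn⟩ := (gb ⟨_, hq⟩).2.1 (kp (vl h.S) w) ((kv_kp _ _ w).trans w0)
  obtain ⟨l, hl⟩ := dec w n hn
  have hc := pX_comm T ξ
  have t2 : ∀ m : ℤ, pC 2 h.S η = m • η → pX 2 T (ξ * ξ) = m • (ξ * ξ) := fun m q => by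
    rw [← hη, psi_ki, q, map_zsmul]
  have t3 : ∀ m : ℤ, pC 3 h.S η = m • η → pX 3 T (ξ * ξ) = m • (ξ * ξ) := fun m q => by
    rw [← hη, psi_ki, q, map_zsmul]
  have od : Odd μ := alg (pX 2 T) (pX 3 T) ξ ν μ n l w ind h2 h3 (t2 _ q2) (t3 _ q3) hc hw hl
  refine ⟨ξ, η, μ, od, (kp_kp h.jS (vl h.S) h.j (fun _ => rfl) ξ).symm, hξ,
    gη.congr fun x => ke_eq hj hq x, ?_⟩
  rw [h3, hη, e81]

end HD

end Crest.Agent.N218.Hf
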